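import Vale.Agent.P235.K5.H237.TriRho

set_option autoImplicit false

/-!
# P235, line EX, row [E2]: the shrink package (helper378, after helper489 #18675)

`ee i x` is the depth of `x` in the leg of the root `R i`, `TT` the tripod law, `sf` the shrinking
of a pair between two different legs, `lam = d - sf` the new lengths, `DD` their path metric.
-/

namespace Vale.Agent.P235.K5.EX.H378

open Vale.Agent.P235 Vale.Agent.P235.K5.H237

variable {V : Type}

/-- the depth of `x` in the leg of `R i` -/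
noncomputable def ee (d : V → V → ℝ) (R : Fin 3 → V) (ρ : Fin 3 → Fin 3 → ℝ) (i : Fin 3)
    (x : V) : ℝ := gpρ ρ i - min (d x (R i)) (gpρ ρ i)

/-- the slack of the root pair `i j` -/
def ss (d : V → V → ℝ) (R : Fin 3 → V) (ρ : Fin 3 → Fin 3 → ℝ) (i j : Fin 3) : ℝ :=
  d (R i) (R j) - ρ i j

/-- the tripod law -/
noncomputable def TT (d : V → V → ℝ) (R : Fin 3 → V) (ρ : Fin 3 → Fin 3 → ℝ) (x y : V) : ℝ :=
  |ee d R ρ 0 x - ee d R ρ 0 y| + |ee d R ρ 1 x - ee d R ρ 1 y| + |ee d R ρ 2 x - ee d R ρ 2 y|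

/-- the shrinking of the pair `x y` -/
noncomputable def sf (d : V → V → ℝ) (R : Fin 3 → V) (ρ : Fin 3 → Fin 3 → ℝ) (x y : V) : ℝ :=
  ∑ i, ∑ j, if i = j then 0 else
    min (ss d R ρ i j) (1 / 4 * min (ee d R ρ i x) (ee d R ρ j y))

/-- the shrunk lengths -/
noncomputable def lam (d : V → V → ℝ) (R : Fin 3 → V) (ρ : Fin 3 → Fin 3 → ℝ) (x y : V) : ℝ :=
  d x y - sf d R ρ x y

/-- their path metric -/
noncomputable def DD (G : SimpleGraph V) (d : V → V → ℝ) (R : Fin 3 → V)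
    (ρ : Fin 3 → Fin 3 → ℝ) : V → V → ℝ := dual G (lam d R ρ)

variable {G : SimpleGraph V} {d : V → V → ℝ} {R : Fin 3 → V} {ρ : Fin 3 → Fin 3 → ℝ}

lemma gp_nonneg (hρ : IsMet ρ) (i : Fin 3) : 0 ≤ gpρ ρ i := by
  unfold gpρ
  have h := hρ.tri (i + 1) i (i + 2)
  rw [hρ.symm (i + 1) i] at h
  linarith

/-- two Gromov products add up to the side -/
lemma gp_add (hρ : IsMet ρ) {i j : Fin 3} (h : i ≠ j) : gpρ ρ i + gpρ ρ j = ρ i j := by
  have s10 := hρ.symm 1 0
  have s20 := hρ.symm 2 0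
  have s21 := hρ.symm 2 1
  have g0 : gpρ ρ 0 = (ρ 0 1 + ρ 0 2 - ρ 1 2) / 2 := rfl
  have g1 : gpρ ρ 1 = (ρ 1 2 + ρ 1 0 - ρ 2 0) / 2 := rfl
  have g2 : gpρ ρ 2 = (ρ 2 0 + ρ 2 1 - ρ 0 1) / 2 := rfl
  have k : ∀ i j : Fin 3, i ≠ j → gpρ ρ i + gpρ ρ j = ρ i j := by
    intro i j hij
    fin_cases i <;> fin_cases j
    · exact absurd rfl hij
    · show gpρ ρ 0 + gpρ ρ 1 = ρ 0 1
      rw [g0, g1]; linarith
    · show gpρ ρ 0 + gpρ ρ 2 = ρ 0 2
      rw [g0, g2]; linarith
    · show gpρ ρ 1 + gpρ ρ 0 = ρ 1 0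
      rw [g0, g1]; linarith
    · exact absurd rfl hij
    · show gpρ ρ 1 + gpρ ρ 2 = ρ 1 2
      rw [g1, g2]; linarith
    · show gpρ ρ 2 + gpρ ρ 0 = ρ 2 0
      rw [g0, g2]; linarith
    · show gpρ ρ 2 + gpρ ρ 1 = ρ 2 1
      rw [g1, g2]; linarith
    · exact absurd rfl hij
  exact k i j h

lemma ee_nonneg (i : Fin 3) (x : V) : 0 ≤ ee d R ρ i x := by
  unfold ee
  linarith [min_le_right (d x (R i)) (gpρ ρ i)]

lemma ee_le (hd : IsMet d) (hρ : IsMet ρ) (i : Fin 3) (x : V) : ee d R ρ i x ≤ gpρ ρ i := by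
  unfold ee
  linarith [le_min (hd.nonneg x (R i)) (gp_nonneg hρ i)]

lemma ee_pos {i : Fin 3} {x : V} (h : 0 < ee d R ρ i x) :
    d x (R i) < gpρ ρ i ∧ ee d R ρ i x = gpρ ρ i - d x (R i) := by
  have h1 : d x (R i) < gpρ ρ i := by
    by_contra h2
    unfold ee at h
    rw [min_eq_right (not_lt.1 h2)] at h
    linarith
  refine ⟨h1, ?_⟩
  unfold ee
  rw [min_eq_left h1.le]

lemma ee_zero_iff {i : Fin 3} {x : V} : ee d R ρ i x = 0 ↔ gpρ ρ i ≤ d x (R i) := by
  constructor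
  · intro h
    by_contra h2
    unfold ee at h
    rw [min_eq_left (not_le.1 h2).le] at h
    linarith [not_le.1 h2]
  · intro h
    unfold ee
    rw [min_eq_right h, sub_self]

/-- `gpρ - d ≤ ee` always -/
lemma le_ee (i : Fin 3) (x : V) : gpρ ρ i - d x (R i) ≤ ee d R ρ i x := by
  unfold ee
  linarith [min_le_left (d x (R i)) (gpρ ρ i)]

lemma ee_lip (hd : IsMet d) (i : Fin 3) (x y : V) :
    |ee d R ρ i x - ee d R ρ i y| ≤ d x y := by
  have h := tt_le hd (R i) (gpρ ρ i) x y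
  unfold tt H237.mm at h
  unfold ee
  rw [abs_sub_comm] at h
  have e : gpρ ρ i - min (d x (R i)) (gpρ ρ i) - (gpρ ρ i - min (d y (R i)) (gpρ ρ i)) =
    min (d y (R i)) (gpρ ρ i) - min (d x (R i)) (gpρ ρ i) := by ring
  rwa [e]

/-- at most one depth is positive -/
lemma ee_unique (hd : IsMet d) (hρ : IsMet ρ) (hle : ∀ i j, ρ i j ≤ d (R i) (R j))
    {i j : Fin 3} (hij : i ≠ j) {x : V} (h : 0 < ee d R ρ i x) : ee d R ρ j x = 0 := by
  by_contra h0
  have h2 : 0 < ee d R ρ j x := lt_of_le_of_ne (ee_nonneg j x) (Ne.symm h0)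
  have h3 := (ee_pos h).1
  have h4 := (ee_pos h2).1
  have h5 := hd.tri (R i) x (R j)
  rw [hd.symm (R i) x] at h5
  linarith [gp_add hρ hij, hle i j]

/-- **the gap between two different legs** -/
lemma gap (hd : IsMet d) (hρ : IsMet ρ) {i j : Fin 3} (hij : i ≠ j)
    {x y : V} (hx : 0 < ee d R ρ i x) (hy : 0 < ee d R ρ j y) :
    ee d R ρ i x + ee d R ρ j y + ss d R ρ i j ≤ d x y := by
  rw [(ee_pos hx).2, (ee_pos hy).2]
  unfold ss
  have h1 := hd.tri (R i) x (R j)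
  have h2 := hd.tri x y (R j)
  rw [hd.symm (R i) x] at h1
  linarith [gp_add hρ hij]

lemma ss_nonneg (hle : ∀ i j, ρ i j ≤ d (R i) (R j)) (i j : Fin 3) : 0 ≤ ss d R ρ i j := by
  unfold ss
  linarith [hle i j]

lemma ss_symm (hd : IsMet d) (hρ : IsMet ρ) (i j : Fin 3) : ss d R ρ i j = ss d R ρ j i := by
  unfold ss
  rw [hd.symm, hρ.symm]

section TT

lemma TT_self (x : V) : TT d R ρ x x = 0 := by
  unfold TT
  rw [sub_self, sub_self, sub_self, abs_zero]
  norm_num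

lemma TT_nonneg (x y : V) : 0 ≤ TT d R ρ x y := by
  unfold TT
  positivity

lemma TT_symm (x y : V) : TT d R ρ x y = TT d R ρ y x := by
  unfold TT
  rw [abs_sub_comm (ee d R ρ 0 x), abs_sub_comm (ee d R ρ 1 x), abs_sub_comm (ee d R ρ 2 x)]

lemma TT_tri (x y z : V) : TT d R ρ x z ≤ TT d R ρ x y + TT d R ρ y z := by
  unfold TT
  linarith [abs_sub_le (ee d R ρ 0 x) (ee d R ρ 0 y) (ee d R ρ 0 z),
    abs_sub_le (ee d R ρ 1 x) (ee d R ρ 1 y) (ee d R ρ 1 z),
    abs_sub_le (ee d R ρ 2 x) (ee d R ρ 2 y) (ee d R ρ 2 z)]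

/-- a single coordinate -/
lemma ee_le_TT (i : Fin 3) (x y : V) : |ee d R ρ i x - ee d R ρ i y| ≤ TT d R ρ x y := by
  unfold TT
  have h0 := abs_nonneg (ee d R ρ 0 x - ee d R ρ 0 y)
  have h1 := abs_nonneg (ee d R ρ 1 x - ee d R ρ 1 y)
  have h2 := abs_nonneg (ee d R ρ 2 x - ee d R ρ 2 y)
  fin_cases i
  · show |ee d R ρ 0 x - ee d R ρ 0 y| ≤ _
    linarith
  · show |ee d R ρ 1 x - ee d R ρ 1 y| ≤ _
    linarith
  · show |ee d R ρ 2 x - ee d R ρ 2 y| ≤ _
    linarith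

lemma ee_tt (i : Fin 3) (x y : V) :
    |ee d R ρ i x - ee d R ρ i y| = tt d (R i) (gpρ ρ i) x y := by
  unfold tt H237.mm ee
  rw [abs_sub_comm]
  congr 1
  ring

/-- `TT ≤ m` for every metric `m` with `ρ ≤ m` on the roots and the same depths -/
lemma TT_le (hd : IsMet d) (hρ : IsMet ρ) (hle : ∀ i j, ρ i j ≤ d (R i) (R j)) (x y : V) :
    TT d R ρ x y ≤ d x y := by
  have h := three hd (a := R 0) (b := R 1) (c := R 2) (P := gpρ ρ 0) (Q := gpρ ρ 1)
    (S := gpρ ρ 2) (by rw [gp_add hρ (by decide)]; exact hle 0 1)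
    (by rw [gp_add hρ (by decide)]; exact hle 0 2)
    (by rw [gp_add hρ (by decide)]; exact hle 1 2) x y
  unfold TT
  rw [ee_tt, ee_tt, ee_tt]
  exact h

end TT

section root

lemma ee_root (hd : IsMet d) (hρ : IsMet ρ) (i : Fin 3) : ee d R ρ i (R i) = gpρ ρ i := by
  unfold ee
  rw [hd.self, min_eq_left (gp_nonneg hρ i), sub_zero]

lemma ee_root_ne (hρ : IsMet ρ) (hle : ∀ i j, ρ i j ≤ d (R i) (R j)) {i j : Fin 3}
    (hij : i ≠ j) : ee d R ρ i (R j) = 0 := by
  rw [ee_zero_iff]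
  linarith [hle j i, gp_add hρ hij.symm, gp_nonneg hρ j]

lemma TT_root (hd : IsMet d) (hρ : IsMet ρ) (hle : ∀ i j, ρ i j ≤ d (R i) (R j)) (i j : Fin 3) :
    TT d R ρ (R i) (R j) = ρ i j := by
  have e0 := ee_root (R := R) hd hρ 0
  have e1 := ee_root (R := R) hd hρ 1
  have e2 := ee_root (R := R) hd hρ 2
  have z01 := ee_root_ne (d := d) (R := R) hρ hle (i := 0) (j := 1) (by decide)
  have z02 := ee_root_ne (d := d) (R := R) hρ hle (i := 0) (j := 2) (by decide)
  have z10 := ee_root_ne (d := d) (R := R) hρ hle (i := 1) (j := 0) (by decide)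
  have z12 := ee_root_ne (d := d) (R := R) hρ hle (i := 1) (j := 2) (by decide)
  have z20 := ee_root_ne (d := d) (R := R) hρ hle (i := 2) (j := 0) (by decide)
  have z21 := ee_root_ne (d := d) (R := R) hρ hle (i := 2) (j := 1) (by decide)
  have p0 := gp_nonneg hρ 0
  have p1 := gp_nonneg hρ 1
  have p2 := gp_nonneg hρ 2
  have a01 := gp_add hρ (i := 0) (j := 1) (by decide)
  have a02 := gp_add hρ (i := 0) (j := 2) (by decide)
  have a12 := gp_add hρ (i := 1) (j := 2) (by decide)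
  have k01 : TT d R ρ (R 0) (R 1) = ρ 0 1 := by
    unfold TT
    simp only [e0, e1, z01, z10, z20, z21, sub_zero, zero_sub, abs_neg, abs_zero,
      abs_of_nonneg p0, abs_of_nonneg p1]
    linarith
  have k02 : TT d R ρ (R 0) (R 2) = ρ 0 2 := by
    unfold TT
    simp only [e0, e2, z02, z10, z20, z12, sub_zero, zero_sub, abs_neg, abs_zero,
      abs_of_nonneg p0, abs_of_nonneg p2]
    linarith
  have k12 : TT d R ρ (R 1) (R 2) = ρ 1 2 := by
    unfold TT
    simp only [e1, e2, z01, z02, z12, z21, sub_zero, zero_sub, abs_neg, abs_zero,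
      abs_of_nonneg p1, abs_of_nonneg p2]
    linarith
  fin_cases i <;> fin_cases j
  · exact (TT_self _).trans (hρ.self _).symm
  · exact k01
  · exact k02
  · exact (TT_symm _ _).trans (k01.trans (hρ.symm _ _))
  · exact (TT_self _).trans (hρ.self _).symm
  · exact k12
  · exact (TT_symm _ _).trans (k02.trans (hρ.symm _ _))
  · exact (TT_symm _ _).trans (k12.trans (hρ.symm _ _))
  · exact (TT_self _).trans (hρ.self _).symm

end root

section sf

/-- `i` and `j` are the legs of `x` and `y` -/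
lemma sf_term (i j : Fin 3) (x y : V) : 0 ≤ ss d R ρ i j →
    0 ≤ (if i = j then 0 else min (ss d R ρ i j) (1 / 4 * min (ee d R ρ i x) (ee d R ρ j y))) := by
  intro h
  split_ifs with h0
  · exact le_rfl
  · refine le_min h (mul_nonneg (by norm_num) (le_min (ee_nonneg i x) (ee_nonneg j y)))

lemma sf_nonneg (hle : ∀ i j, ρ i j ≤ d (R i) (R j)) (x y : V) : 0 ≤ sf d R ρ x y :=
  Finset.sum_nonneg fun i _ => Finset.sum_nonneg fun j _ => sf_term i j x y (ss_nonneg hle i j)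

lemma sf_symm (hd : IsMet d) (hρ : IsMet ρ) (x y : V) : sf d R ρ x y = sf d R ρ y x := by
  unfold sf
  rw [Finset.sum_comm]
  refine Finset.sum_congr rfl fun i _ => Finset.sum_congr rfl fun j _ => ?_
  by_cases h : j = i
  · rw [if_pos h, if_pos h.symm]
  · rw [if_neg h, if_neg (Ne.symm h), ss_symm hd hρ j i, min_comm (ee d R ρ j x)]

/-- in different legs the sum has one term -/
lemma sf_eq (hd : IsMet d) (hρ : IsMet ρ) (hle : ∀ i j, ρ i j ≤ d (R i) (R j)) {i j : Fin 3}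
    (hij : i ≠ j) {x y : V} (hx : 0 < ee d R ρ i x) (hy : 0 < ee d R ρ j y) :
    sf d R ρ x y = min (ss d R ρ i j) (1 / 4 * min (ee d R ρ i x) (ee d R ρ j y)) := by
  unfold sf
  rw [Finset.sum_eq_single i, Finset.sum_eq_single j]
  · rw [if_neg hij]
  · intro k _ hk
    split_ifs with h0
    · rfl
    · rw [ee_unique hd hρ hle (Ne.symm hk) hy, min_eq_right hx.le, mul_zero,
        min_eq_right (ss_nonneg hle i k)]
  · intro h
    exact absurd (Finset.mem_univ j) h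
  · intro k _ hk
    refine Finset.sum_eq_zero fun m _ => ?_
    split_ifs with h0
    · rfl
    · rw [ee_unique hd hρ hle (Ne.symm hk) hx, min_eq_left (ee_nonneg m y), mul_zero,
        min_eq_right (ss_nonneg hle k m)]
  · intro h
    exact absurd (Finset.mem_univ i) h

/-- otherwise it vanishes -/
lemma sf_zero (hle : ∀ i j, ρ i j ≤ d (R i) (R j)) {x y : V}
    (h : ∀ i j, i ≠ j → ee d R ρ i x = 0 ∨ ee d R ρ j y = 0) : sf d R ρ x y = 0 := by
  unfold sf
  refine Finset.sum_eq_zero fun i _ => Finset.sum_eq_zero fun j _ => ?_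
  split_ifs with h0
  · rfl
  · have h1 : min (ee d R ρ i x) (ee d R ρ j y) = 0 := by
      rcases h i j h0 with h2 | h2
      · rw [h2, min_eq_left (ee_nonneg j y)]
      · rw [h2, min_eq_right (ee_nonneg i x)]
    rw [h1, mul_zero, min_eq_right (ss_nonneg hle i j)]

/-- the dichotomy -/
lemma sf_cases (hd : IsMet d) (hρ : IsMet ρ) (hle : ∀ i j, ρ i j ≤ d (R i) (R j)) (x y : V) :
    (∃ i j, i ≠ j ∧ 0 < ee d R ρ i x ∧ 0 < ee d R ρ j y ∧
      sf d R ρ x y = min (ss d R ρ i j) (1 / 4 * min (ee d R ρ i x) (ee d R ρ j y))) ∨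
    ((∀ i j, i ≠ j → ee d R ρ i x = 0 ∨ ee d R ρ j y = 0) ∧ sf d R ρ x y = 0) := by
  by_cases h : ∀ i j, i ≠ j → ee d R ρ i x = 0 ∨ ee d R ρ j y = 0
  · exact Or.inr ⟨h, sf_zero hle h⟩
  · push Not at h
    obtain ⟨i, j, hij, hx, hy⟩ := h
    have hx' := lt_of_le_of_ne (ee_nonneg i x) (Ne.symm hx)
    have hy' := lt_of_le_of_ne (ee_nonneg j y) (Ne.symm hy)
    exact Or.inl ⟨i, j, hij, hx', hy', sf_eq hd hρ hle hij hx' hy'⟩

/-- in different legs the tripod law is the sum of the depths -/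
lemma TT_eq (hd : IsMet d) (hρ : IsMet ρ) (hle : ∀ i j, ρ i j ≤ d (R i) (R j)) {i j : Fin 3}
    (hij : i ≠ j) {x y : V} (hx : 0 < ee d R ρ i x) (hy : 0 < ee d R ρ j y) :
    TT d R ρ x y = ee d R ρ i x + ee d R ρ j y := by
  have u1 : ∀ k, i ≠ k → ee d R ρ k x = 0 := fun k hk => ee_unique hd hρ hle hk hx
  have u2 : ∀ k, j ≠ k → ee d R ρ k y = 0 := fun k hk => ee_unique hd hρ hle hk hy
  have key : ∀ i j : Fin 3, i ≠ j → 0 < ee d R ρ i x → 0 < ee d R ρ j y →
      (∀ k, i ≠ k → ee d R ρ k x = 0) → (∀ k, j ≠ k → ee d R ρ k y = 0) →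
      TT d R ρ x y = ee d R ρ i x + ee d R ρ j y := by
    intro i j hij hx hy u1 u2
    unfold TT
    fin_cases i <;> fin_cases j
    · exact absurd rfl hij
    · show _ = ee d R ρ 0 x + ee d R ρ 1 y
      have hx' : 0 < ee d R ρ 0 x := hx
      have hy' : 0 < ee d R ρ 1 y := hy
      have v1 : ee d R ρ 1 x = 0 := u1 1 (by decide)
      have v2 : ee d R ρ 2 x = 0 := u1 2 (by decide)
      have v3 : ee d R ρ 0 y = 0 := u2 0 (by decide)
      have v4 : ee d R ρ 2 y = 0 := u2 2 (by decide)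
      simp only [v1, v2, v3, v4, sub_zero, zero_sub, sub_self, abs_neg, abs_zero,
        abs_of_pos hx', abs_of_pos hy', add_zero, zero_add]
      try ring
    · show _ = ee d R ρ 0 x + ee d R ρ 2 y
      have hx' : 0 < ee d R ρ 0 x := hx
      have hy' : 0 < ee d R ρ 2 y := hy
      have v1 : ee d R ρ 1 x = 0 := u1 1 (by decide)
      have v2 : ee d R ρ 2 x = 0 := u1 2 (by decide)
      have v3 : ee d R ρ 0 y = 0 := u2 0 (by decide)
      have v4 : ee d R ρ 1 y = 0 := u2 1 (by decide)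
      simp only [v1, v2, v3, v4, sub_zero, zero_sub, sub_self, abs_neg, abs_zero,
        abs_of_pos hx', abs_of_pos hy', add_zero, zero_add]
      try ring
    · show _ = ee d R ρ 1 x + ee d R ρ 0 y
      have hx' : 0 < ee d R ρ 1 x := hx
      have hy' : 0 < ee d R ρ 0 y := hy
      have v1 : ee d R ρ 0 x = 0 := u1 0 (by decide)
      have v2 : ee d R ρ 2 x = 0 := u1 2 (by decide)
      have v3 : ee d R ρ 1 y = 0 := u2 1 (by decide)
      have v4 : ee d R ρ 2 y = 0 := u2 2 (by decide)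
      simp only [v1, v2, v3, v4, sub_zero, zero_sub, sub_self, abs_neg, abs_zero,
        abs_of_pos hx', abs_of_pos hy', add_zero, zero_add]
      try ring
    · exact absurd rfl hij
    · show _ = ee d R ρ 1 x + ee d R ρ 2 y
      have hx' : 0 < ee d R ρ 1 x := hx
      have hy' : 0 < ee d R ρ 2 y := hy
      have v1 : ee d R ρ 0 x = 0 := u1 0 (by decide)
      have v2 : ee d R ρ 2 x = 0 := u1 2 (by decide)
      have v3 : ee d R ρ 0 y = 0 := u2 0 (by decide)
      have v4 : ee d R ρ 1 y = 0 := u2 1 (by decide)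
      simp only [v1, v2, v3, v4, sub_zero, zero_sub, sub_self, abs_neg, abs_zero,
        abs_of_pos hx', abs_of_pos hy', add_zero, zero_add]
      try ring
    · show _ = ee d R ρ 2 x + ee d R ρ 0 y
      have hx' : 0 < ee d R ρ 2 x := hx
      have hy' : 0 < ee d R ρ 0 y := hy
      have v1 : ee d R ρ 0 x = 0 := u1 0 (by decide)
      have v2 : ee d R ρ 1 x = 0 := u1 1 (by decide)
      have v3 : ee d R ρ 1 y = 0 := u2 1 (by decide)
      have v4 : ee d R ρ 2 y = 0 := u2 2 (by decide)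
      simp only [v1, v2, v3, v4, sub_zero, zero_sub, sub_self, abs_neg, abs_zero,
        abs_of_pos hx', abs_of_pos hy', add_zero, zero_add]
      try ring
    · show _ = ee d R ρ 2 x + ee d R ρ 1 y
      have hx' : 0 < ee d R ρ 2 x := hx
      have hy' : 0 < ee d R ρ 1 y := hy
      have v1 : ee d R ρ 0 x = 0 := u1 0 (by decide)
      have v2 : ee d R ρ 1 x = 0 := u1 1 (by decide)
      have v3 : ee d R ρ 0 y = 0 := u2 0 (by decide)
      have v4 : ee d R ρ 2 y = 0 := u2 2 (by decide)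
      simp only [v1, v2, v3, v4, sub_zero, zero_sub, sub_self, abs_neg, abs_zero,
        abs_of_pos hx', abs_of_pos hy', add_zero, zero_add]
      try ring
    · exact absurd rfl hij
  exact key i j hij hx hy u1 u2

/-- `sf ≤ d / 8` -/
lemma sf_le (hd : IsMet d) (hρ : IsMet ρ) (hle : ∀ i j, ρ i j ≤ d (R i) (R j)) (x y : V) :
    sf d R ρ x y ≤ 1 / 8 * d x y := by
  rcases sf_cases hd hρ hle x y with ⟨i, j, hij, hx, hy, h⟩ | ⟨_, h⟩
  · have h1 := gap hd hρ hij hx hy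
    have h2 := ss_nonneg hle i j
    have h3 : sf d R ρ x y ≤ 1 / 4 * min (ee d R ρ i x) (ee d R ρ j y) :=
      h.trans_le (min_le_right _ _)
    have h4 := min_le_left (ee d R ρ i x) (ee d R ρ j y)
    have h5 := min_le_right (ee d R ρ i x) (ee d R ρ j y)
    linarith
  · rw [h]
    linarith [hd.nonneg x y]

lemma le_le (hle : ∀ i j, ρ i j ≤ d (R i) (R j)) (x y : V) : lam d R ρ x y ≤ d x y := by
  unfold lam
  linarith [sf_nonneg hle x y]

lemma lam_symm (hd : IsMet d) (hρ : IsMet ρ) (x y : V) : lam d R ρ x y = lam d R ρ y x := by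
  unfold lam
  rw [hd.symm, sf_symm hd hρ]

lemma low_le (hd : IsMet d) (hρ : IsMet ρ) (hle : ∀ i j, ρ i j ≤ d (R i) (R j)) (x y : V) :
    3 / 4 * d x y ≤ lam d R ρ x y := by
  unfold lam
  linarith [sf_le hd hρ hle x y, hd.nonneg x y]

/-- **`T ≤ l`** -/
lemma TT_le_le (hd : IsMet d) (hρ : IsMet ρ) (hle : ∀ i j, ρ i j ≤ d (R i) (R j)) (x y : V) :
    TT d R ρ x y ≤ lam d R ρ x y := by
  unfold lam
  rcases sf_cases hd hρ hle x y with ⟨i, j, hij, hx, hy, h⟩ | ⟨_, h⟩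
  · have h1 := gap hd hρ hij hx hy
    have h3 : sf d R ρ x y ≤ ss d R ρ i j := h.trans_le (min_le_left _ _)
    rw [TT_eq hd hρ hle hij hx hy]
    linarith
  · rw [h, sub_zero]
    exact TT_le hd hρ hle x y

end sf

section DD

lemma DD_le_le (hd : IsMet d) (hρ : IsMet ρ) (hle : ∀ i j, ρ i j ≤ d (R i) (R j)) {u v : V}
    (h : G.Adj u v) : DD G d R ρ u v ≤ lam d R ρ u v :=
  dual_le (fun u v _ => (mul_nonneg (by norm_num) (hd.nonneg u v)).trans (low_le hd hρ hle u v))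
    fun _ hf => hf u v h

lemma DD_le (hd : IsMet d) (hG : Gen G d) (hρ : IsMet ρ) (hle : ∀ i j, ρ i j ≤ d (R i) (R j))
    (x y : V) : DD G d R ρ x y ≤ d x y :=
  dual_le (fun u v _ => (mul_nonneg (by norm_num) (hd.nonneg u v)).trans (low_le hd hρ hle u v))
    fun _ hf => lip_le hG (fun u v _ => le_le hle u v) hf x y

/-- a function which is Lipschitz for the lengths `lam` on the edges is so for `DD` -/
lemma lip_DD (hG : Gen G d) (hle : ∀ i j, ρ i j ≤ d (R i) (R j)) {f : V → ℝ}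
    (hf : ∀ u v, G.Adj u v → |f u - f v| ≤ lam d R ρ u v) (x y : V) :
    |f x - f y| ≤ DD G d R ρ x y :=
  le_dual hG (fun u v _ => le_le hle u v) hf x y

lemma low_DD (hd : IsMet d) (hG : Gen G d) (hρ : IsMet ρ) (hle : ∀ i j, ρ i j ≤ d (R i) (R j))
    (x y : V) : 3 / 4 * d x y ≤ DD G d R ρ x y := by
  have h := lip_DD (G := G) (f := fun z => 3 / 4 * d z y) hG hle (fun u v _ => by
    show |3 / 4 * d u y - 3 / 4 * d v y| ≤ _
    rw [← mul_sub, abs_mul, abs_of_pos (show (0 : ℝ) < 3 / 4 by norm_num)]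
    exact (mul_le_mul_of_nonneg_left (abs_dist_sub hd u v y) (by norm_num)).trans
      (low_le hd hρ hle u v)) x y
  have e : |3 / 4 * d x y - 3 / 4 * d y y| = 3 / 4 * d x y := by
    rw [hd.self, mul_zero, sub_zero, abs_of_nonneg (mul_nonneg (by norm_num) (hd.nonneg x y))]
  exact e.ge.trans h

lemma TT_le_DD (hd : IsMet d) (hG : Gen G d) (hρ : IsMet ρ)
    (hle : ∀ i j, ρ i j ≤ d (R i) (R j)) (x y : V) : TT d R ρ x y ≤ DD G d R ρ x y := by
  have h := lip_DD (G := G) (f := fun z => TT d R ρ z y) hG hle (fun u v _ => by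
    show |TT d R ρ u y - TT d R ρ v y| ≤ _
    have h1 := TT_tri (d := d) (R := R) (ρ := ρ) u v y
    have h2 := TT_tri (d := d) (R := R) (ρ := ρ) v u y
    rw [TT_symm v u] at h2
    refine le_trans ?_ (TT_le_le hd hρ hle u v)
    rw [abs_le]
    constructor <;> linarith) x y
  have e : |TT d R ρ x y - TT d R ρ y y| = TT d R ρ x y := by
    rw [TT_self, sub_zero, abs_of_nonneg (TT_nonneg x y)]
  exact e.ge.trans h

lemma DD_isMet (hd : IsMet d) (hG : Gen G d) (hρ : IsMet ρ)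
    (hle : ∀ i j, ρ i j ≤ d (R i) (R j)) : IsMet (DD G d R ρ) :=
  dual_isMet hd hG (fun u v _ => le_le hle u v) (δ := 3 / 4) (by norm_num)
    fun u v _ => low_le hd hρ hle u v

lemma DD_gen (hd : IsMet d) (hG : Gen G d) (hρ : IsMet ρ)
    (hle : ∀ i j, ρ i j ≤ d (R i) (R j)) : Gen G (DD G d R ρ) :=
  dual_gen hG (fun u v _ => le_le hle u v)
    fun u v _ => (mul_nonneg (by norm_num) (hd.nonneg u v)).trans (low_le hd hρ hle u v)

lemma root_DD (hd : IsMet d) (hG : Gen G d) (hρ : IsMet ρ)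
    (hle : ∀ i j, ρ i j ≤ d (R i) (R j)) (i j : Fin 3) :
    ρ i j ≤ DD G d R ρ (R i) (R j) :=
  (TT_root hd hρ hle i j).ge.trans (TT_le_DD hd hG hρ hle (R i) (R j))

end DD

section unshrink

/-- slope one up to `A`, then `3 / 4` -/
noncomputable def phi (A t : ℝ) : ℝ := min t (A + 3 / 4 * (t - A))

lemma phi_low {A t : ℝ} (h : t ≤ A) : phi A t = t := min_eq_left (by linarith)

lemma phi_high {A t : ℝ} (h : A ≤ t) : phi A t = A + 3 / 4 * (t - A) := min_eq_right (by linarith)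

lemma phi_lip (A s t : ℝ) : |phi A s - phi A t| ≤ |s - t| := by
  have key : ∀ s t, phi A s - phi A t ≤ |s - t| := by
    intro s t
    have h1 := le_abs_self (s - t)
    have h2 := abs_nonneg (s - t)
    rcases le_total s A with hs | hs <;> rcases le_total t A with ht | ht
    · rw [phi_low hs, phi_low ht]
      linarith
    · rw [phi_low hs, phi_high ht]
      linarith
    · rw [phi_high hs, phi_low ht]
      linarith
    · rw [phi_high hs, phi_high ht]
      linarith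
  rw [abs_le]
  have h1 := key s t
  have h2 := key t s
  rw [abs_sub_comm] at h2
  constructor <;> linarith

lemma phi_one (hd : IsMet d) (hρ : IsMet ρ) (hle : ∀ i j, ρ i j ≤ d (R i) (R j)) (i j : Fin 3)
    (hij : i ≠ j) (u v : V) (hu : 0 < ee d R ρ i u) (hv : 0 < ee d R ρ j v)
    (h : sf d R ρ u v = min (ss d R ρ i j) (1 / 4 * min (ee d R ρ i u) (ee d R ρ j v))) :
    |phi (gpρ ρ i) (d u (R i)) - phi (gpρ ρ i) (d v (R i))| ≤ lam d R ρ u v := by
  have e1 := ee_pos hu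
  have e2 : gpρ ρ i ≤ d v (R i) := ee_zero_iff.1 (ee_unique hd hρ hle hij.symm hv)
  have h1 := gap hd hρ hij hu hv
  have h2 := ss_nonneg hle i j
  have h3 : sf d R ρ u v ≤ 1 / 4 * min (ee d R ρ i u) (ee d R ρ j v) :=
    h.trans_le (min_le_right _ _)
  have h4 := min_le_right (ee d R ρ i u) (ee d R ρ j v)
  have h5 := hd.tri v u (R i)
  rw [hd.symm v u] at h5
  rw [phi_low e1.1.le, phi_high e2, abs_sub_comm, abs_of_nonneg (by linarith [e1.1])]
  unfold lam
  linarith [e1.2]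

lemma phi_lam (hd : IsMet d) (hρ : IsMet ρ) (hle : ∀ i j, ρ i j ≤ d (R i) (R j)) (i : Fin 3)
    (u v : V) :
    |phi (gpρ ρ i) (d u (R i)) - phi (gpρ ρ i) (d v (R i))| ≤ lam d R ρ u v := by
  rcases sf_cases hd hρ hle u v with ⟨p, q, hpq, hu, hv, h⟩ | ⟨_, h⟩
  · by_cases hip : i = p
    · subst hip
      exact phi_one hd hρ hle i q hpq u v hu hv h
    · by_cases hiq : i = q
      · subst hiq
        rw [abs_sub_comm, lam_symm hd hρ]
        refine phi_one hd hρ hle i p (Ne.symm hpq) v u hv hu ?_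
        rw [sf_symm hd hρ, h, ss_symm hd hρ, min_comm (ee d R ρ p u)]
      · have e1 : gpρ ρ i ≤ d u (R i) := ee_zero_iff.1 (ee_unique hd hρ hle (Ne.symm hip) hu)
        have e2 : gpρ ρ i ≤ d v (R i) := ee_zero_iff.1 (ee_unique hd hρ hle (Ne.symm hiq) hv)
        rw [phi_high e1, phi_high e2]
        have e3 : gpρ ρ i + 3 / 4 * (d u (R i) - gpρ ρ i) -
            (gpρ ρ i + 3 / 4 * (d v (R i) - gpρ ρ i)) = 3 / 4 * (d u (R i) - d v (R i)) := by
          ring
        rw [e3, abs_mul, abs_of_pos (show (0 : ℝ) < 3 / 4 by norm_num)]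
        exact (mul_le_mul_of_nonneg_left (abs_dist_sub hd u v (R i)) (by norm_num)).trans
          (low_le hd hρ hle u v)
  · unfold lam
    rw [h, sub_zero]
    exact (phi_lip _ _ _).trans (abs_dist_sub hd u v (R i))

/-- **unshrinking** -/
lemma unshrink (hd : IsMet d) (hG : Gen G d) (hρ : IsMet ρ)
    (hle : ∀ i j, ρ i j ≤ d (R i) (R j)) (i : Fin 3) (x : V) (t : ℝ) (ht : 0 ≤ t)
    (h : DD G d R ρ x (R i) ≤ gpρ ρ i + t) : d x (R i) ≤ gpρ ρ i + 4 / 3 * t := by
  have h1 := lip_DD (G := G) (f := fun z => phi (gpρ ρ i) (d z (R i))) hG hle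
    (fun u v _ => phi_lam hd hρ hle i u v) x (R i)
  have h2 : phi (gpρ ρ i) (d (R i) (R i)) = 0 := by
    rw [hd.self, phi_low (gp_nonneg hρ i)]
  have h3 : phi (gpρ ρ i) (d x (R i)) ≤ gpρ ρ i + t := by
    have h4 := (le_abs_self _).trans h1
    rw [h2, sub_zero] at h4
    exact h4.trans h
  rcases le_total (d x (R i)) (gpρ ρ i) with h5 | h5
  · linarith
  · rw [phi_high h5] at h3
    linarith

end unshrink

end Vale.Agent.P235.K5.EX.H378
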