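import Vale.Agent.P235.K5.EX.Defs
import Vale.Agent.P235.K5.EX.H378.Shrink

set_option autoImplicit false

/-!
# P235, line EX, row [E2]: the literal `ShrStmt` (helper378)
-/

namespace Vale.Agent.P235.K5.EX.H378

open Vale.Agent.P235 Vale.Agent.P235.K5.H237

theorem shr : ShrStmt := by
  intro V _ G d hd hG R _ ρ hρ hle
  refine ⟨fun i x => ee d R ρ i x, sf d R ρ, DD G d R ρ, ?_⟩
  exact
    { e_nonneg := fun i x => ee_nonneg i x
      e_le := fun i x => ee_le hd hρ i x
      one := fun i j x hij => by
        by_cases h : ee d R ρ i x = 0
        · exact Or.inl h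
        · exact Or.inr (ee_unique hd hρ hle hij (lt_of_le_of_ne (ee_nonneg i x) (Ne.symm h)))
      root := fun i => ee_root hd hρ i
      root' := fun i j hij => ee_root_ne hρ hle hij.symm
      sh_nonneg := fun x y => sf_nonneg hle x y
      sh_low := fun i j x y hij => by
        have h1 : ∀ i j, 0 ≤ (if i = j then 0 else
            min (ss d R ρ i j) (1 / 4 * min (ee d R ρ i x) (ee d R ρ j y))) :=
          fun i j => sf_term i j x y (ss_nonneg hle i j)
        have h2 : (if i = j then 0 else
            min (ss d R ρ i j) (1 / 4 * min (ee d R ρ i x) (ee d R ρ j y))) ≤ sf d R ρ x y :=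
          (Finset.single_le_sum (f := fun j => if i = j then 0 else
            min (ss d R ρ i j) (1 / 4 * min (ee d R ρ i x) (ee d R ρ j y)))
            (fun j _ => h1 i j) (Finset.mem_univ j)).trans
          (Finset.single_le_sum (f := fun i => ∑ j, if i = j then 0 else
            min (ss d R ρ i j) (1 / 4 * min (ee d R ρ i x) (ee d R ρ j y)))
            (fun i _ => Finset.sum_nonneg fun j _ => h1 i j) (Finset.mem_univ i))
        rw [if_neg hij] at h2
        exact h2
      sh_up := fun x y => by
        have h1 := sf_le hd hρ hle x y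
        linarith [hd.nonneg x y]
      tt_le := fun x y => TT_le_le hd hρ hle x y
      met := DD_isMet hd hG hρ hle
      gen := DD_gen hd hG hρ hle
      le_d := fun x y => DD_le hd hG hρ hle x y
      le_edge := fun x y h => DD_le_le hd hρ hle h
      tt_D := fun x y => TT_le_DD hd hG hρ hle x y
      low := fun x y => low_DD hd hG hρ hle x y
      unshrink := fun i x t ht h => unshrink hd hG hρ hle i x t ht h }

end Vale.Agent.P235.K5.EX.H378
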