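import Vale.Agent.P235.K5.EX.Defs
import Vale.Agent.P235.K5.EX.H378.Shrink

set_option autoImplicit false

/-!
# P235, line EX, row [E3]: the literal `CentreStmt` (helper378)
-/

namespace Vale.Agent.P235.K5.EX.H378

open Vale.Agent.P235 Vale.Agent.P235.K5.H237

theorem centre : CentreStmt := by
  intro V G d hd R ρ hρ hle hsl e sh D hS d'' hd'' hroot hdD hcase x y t hx hy
  have hgp : ∀ i, gp d'' R i = ga ρ i := by
    intro i
    unfold gp ga
    rw [hroot, hroot, hroot]
  simp only [hgp] at hx hy
  have hadd : ∀ i j, i ≠ j → ga ρ i + ga ρ j = ρ i j := fun i j h => gp_add hρ h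
  have h01 := hadd 0 1 (by decide)
  have h12 := hadd 1 2 (by decide)
  have h02 := hadd 0 2 (by decide)
  have ht : 0 ≤ t := by
    have h1 := hd''.tri (R 0) x (R 1)
    rw [hd''.symm (R 0) x, hroot] at h1
    linarith [hx 0, hx 1]
  have hend : ∀ q, d'' x y ≤ 2 * (ga ρ q + t) := by
    intro q
    have h1 := hd''.tri x (R q) y
    rw [hd''.symm (R q) y] at h1
    linarith [hx q, hy q]
  by_cases hA : ∃ j, ga ρ j ≤ t
  · obtain ⟨j, hj⟩ := hA
    linarith [hend j]
  · push Not at hA
    have hDx : ∀ i, D x (R i) ≤ ga ρ i + t := by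
      intro i
      rcases hcase x (R i) with h | ⟨a, b, h⟩
      · rw [← h]
        exact hx i
      · have h1 := hdD (R b) (R i)
        rw [hroot] at h1
        have h2 := hρ.tri a b i
        have h3 := hx i
        rw [h] at h3
        by_cases hai : a = i
        · subst hai
          rw [hρ.self] at h2
          linarith
        · have h4 := hadd a i hai
          have h5 : 0 ≤ D x (R a) := (hd''.nonneg x (R a)).trans (hdD x (R a))
          linarith [hA a]
    have hdx : ∀ i, d x (R i) ≤ ga ρ i + 4 / 3 * t := fun i => hS.unshrink i x t ht (hDx i)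
    have hr : ∀ i j, d (R i) (R j) ≤ ga ρ i + ga ρ j + 8 / 3 * t := by
      intro i j
      have h1 := hd.tri (R i) x (R j)
      rw [hd.symm (R i) x] at h1
      linarith [hdx i, hdx j]
    obtain ⟨q, hq⟩ := hsl
    have hs : sr d R ρ ≤ 8 * t := by
      unfold sr
      linarith [hr 0 1, hr 1 2, hr 0 2]
    linarith [hend q]

end Vale.Agent.P235.K5.EX.H378
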